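import Vale.Agent.P231Z.Cov.Exp
import Vale.Agent.P231Z.Fin.MainOf

/-! P231: the volume inequality for cut multiplicity zero follows from the one for spheres. -/

set_option maxSynthPendingDepth 3
set_option linter.unusedSectionVars false

open Bundle Manifold Set Filter Module MeasureTheory
open scoped ContDiff Manifold Topology ENNReal

namespace Vale.Agent.P231Z.Cov

noncomputable section

open Vale.Agent.P234 Vale.Agent.P231

theorem two_mul_le {X Y : Type*} [MetricSpace X] [MeasurableSpace X] [BorelSpace X]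
    [MetricSpace Y] [CompactSpace Y] [MeasurableSpace Y] [BorelSpace Y] {q : Y → X} {σ : Y → Y}
    (hq : LipschitzWith 1 q) (hs : Function.Surjective q) (hσ : Continuous σ)
    (hi : ∀ y, q (σ y) = q y) (hn : ∀ y, σ y ≠ y) (hσσ : ∀ y, σ (σ y) = y) {d : ℝ} (hd : 0 ≤ d) :
    2 * Measure.hausdorffMeasure d (univ : Set X) ≤ Measure.hausdorffMeasure d (univ : Set Y) := by
  have hf := measurableEmbedding_embeddingReal Y
  set f := embeddingReal Y
  have h1 : ∀ A : Set Y, (∀ y, y ∈ A ∨ σ y ∈ A) →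
      Measure.hausdorffMeasure d (univ : Set X) ≤ Measure.hausdorffMeasure d A := by
    intro A hA
    have h2 := hq.hausdorffMeasure_image_le hd A
    have h3 : q '' A = univ := eq_univ_of_forall fun x => by
      obtain ⟨y, rfl⟩ := hs x
      rcases hA y with h4 | h4
      · exact ⟨y, h4, rfl⟩
      · exact ⟨σ y, h4, hi y⟩
    rwa [h3, ENNReal.coe_one, ENNReal.one_rpow, one_mul] at h2
  have h4 : ∀ y, f y < f (σ y) ∨ f (σ y) < f y := fun y =>
    lt_or_gt_of_ne fun h5 => hn y (hf.injective h5).symm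
  have hA := h1 {y | f y < f (σ y)} fun y => by
    simpa only [mem_ofPred_eq, hσσ] using h4 y
  have hB := h1 {y | f (σ y) < f y} fun y => by
    simpa only [mem_ofPred_eq, hσσ] using (h4 y).symm
  have h5 : MeasurableSet {y | f (σ y) < f y} :=
    measurableSet_lt (hf.measurable.comp hσ.measurable) hf.measurable
  have h6 : Disjoint {y | f y < f (σ y)} {y | f (σ y) < f y} :=
    Set.disjoint_left.2 fun y (h7 : f y < f (σ y)) (h8 : f (σ y) < f y) => lt_asymm h7 h8
  rw [two_mul]
  refine (add_le_add hA hB).trans ?_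
  rw [← measure_union h6 h5]
  exact measure_mono (subset_univ _)

theorem model_two (N : ℕ) {D : ℝ} (hD : 0 < D) :
    Blaschke.modelVolume N N (2 * D) = 2 * Blaschke.modelVolume N 0 D := by
  have hpi := Real.pi_pos.ne'
  have hD' := hD.ne'
  obtain ⟨g, hg⟩ : ∃ g : ℝ → ℝ,
      g = fun r => (2 * D / Real.pi * Real.sin (Real.pi * r / (2 * D))) ^ N := ⟨_, rfl⟩
  have hc : Continuous g := by
    rw [hg]
    fun_prop
  have h1 : ∀ r : ℝ, (2 * (2 * D) / Real.pi * Real.sin (Real.pi * r / (2 * (2 * D)))) ^ N *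
      Real.cos (Real.pi * r / (2 * (2 * D))) ^ N = g r := fun r => by
    have h2 : Real.pi * r / (2 * D) = 2 * (Real.pi * r / (2 * (2 * D))) := by field_simp
    rw [hg, ← mul_pow]
    show _ = (2 * D / Real.pi * Real.sin (Real.pi * r / (2 * D))) ^ N
    rw [h2, Real.sin_two_mul]
    congr 1
    ring
  have h2 : ∀ r : ℝ, g (2 * D - r) = g r := fun r => by
    have h3 : Real.pi * (2 * D - r) / (2 * D) = Real.pi - Real.pi * r / (2 * D) := by field_simp
    rw [hg]
    show (2 * D / Real.pi * Real.sin (Real.pi * (2 * D - r) / (2 * D))) ^ N = _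
    rw [h3, Real.sin_pi_sub]
  have h3 : ∫ r in D..(2 * D), g r = ∫ r in (0 : ℝ)..D, g r := by
    have h4 := intervalIntegral.integral_comp_sub_left (a := 0) (b := D) g (2 * D)
    rw [show 2 * D - D = D by ring, sub_zero] at h4
    rw [← h4]
    exact intervalIntegral.integral_congr fun r _ => h2 r
  have h4 : ∫ r in (0 : ℝ)..(2 * D), g r = 2 * ∫ r in (0 : ℝ)..D, g r := by
    rw [← intervalIntegral.integral_add_adjacent_intervals (b := D) (hc.intervalIntegrable _ _)
      (hc.intervalIntegrable _ _), h3, two_mul]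
  unfold Blaschke.modelVolume
  simp only [h1, pow_zero, mul_one]
  rw [h4, hg]
  ring

variable {E : Type*} [NormedAddCommGroup E] [NormedSpace ℝ E] [FiniteDimensional ℝ E]
  {M : Type*} [MetricSpace M] [ChartedSpace E M]
  [RiemannianBundle (fun x : M => TangentSpace 𝓘(ℝ, E) x)]
  [IsManifold 𝓘(ℝ, E) ∞ M]
  [IsContMDiffRiemannianBundle 𝓘(ℝ, E) ∞ E (fun x : M => TangentSpace 𝓘(ℝ, E) x)]
  [CompactSpace M] [ConnectedSpace M] [IsRiemannianManifold 𝓘(ℝ, E) M]
  {e : ∀ x : M, TangentSpace 𝓘(ℝ, E) x → M}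

/-- **the volume inequality for `l = 0` from the one for `l = N`** -/
theorem volLe_zero {N : ℕ} (h1 : 1 ≤ N)
    (hS : ∀ (Y : Type) [MetricSpace Y] [ChartedSpace E Y]
      [RiemannianBundle (fun x : Y => TangentSpace 𝓘(ℝ, E) x)] [IsManifold 𝓘(ℝ, E) ∞ Y]
      [IsContMDiffRiemannianBundle 𝓘(ℝ, E) ∞ E (fun x : Y => TangentSpace 𝓘(ℝ, E) x)]
      [CompactSpace Y] [ConnectedSpace Y] [IsRiemannianManifold 𝓘(ℝ, E) Y]
      (e' : ∀ x : Y, TangentSpace 𝓘(ℝ, E) x → Y), Fin.VolLe e' N N) : Fin.VolLe e N 0 := by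
  intro _ _ F D hD hB hdiam hP hN
  obtain ⟨q, hq⟩ := exists_dbl F hD hB hdiam hP hN
  have hcl : ∀ (x : M) (v : E), nm x v = 2 * D → e x v = x :=
    fun x v hv => closed_of_inj_diam F hD hB hdiam x v hv
  have hcon : ConnectedSpace (Metric.sphere (0 : EuclideanSpace ℝ (Fin (N + 2))) 1) := by
    refine isConnected_iff_connectedSpace.1 (isConnected_sphere ?_ 0 zero_le_one)
    rw [← Module.finrank_eq_rank, finrank_euclideanSpace_fin]
    exact_mod_cast (by omega : 1 < N + 2)
  obtain ⟨Z, _, _, _, _, _, _, φ, h⟩ := exists_tot (E := E) hq.cov.isLocalHomeomorph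
  have hZ1 : CompactSpace Z := φ.symm.compactSpace
  have hZ2 : ConnectedSpace Z := φ.symm.surjective.connectedSpace φ.symm.continuous
  have hd := hq.comp φ
  obtain ⟨e', L⟩ := exists_lift F h hd.cov
  borelize Z
  have h2 := hS Z e' (facts_of_isExp (L.isExp F h)) (2 * D) (by positivity)
    (L.injGE F h hd hD hB hcl h1 hN) (L.diam F h hd hD hdiam hcl h1 hN)
    (L.pl F h hd hD hcl h1 hN) hN
  have h3 := two_mul_le (LipschitzWith.of_edist_le h.edist_le') hd.surj hd.cont hd.inv hd.ne
    hd.invol (d := ((N + 1 : ℕ) : ℝ)) (Nat.cast_nonneg _)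
  have h4 : 2 * Blaschke.riemannianVolume (N + 1) M univ ≤
      Blaschke.riemannianVolume (N + 1) Z univ := by
    unfold Blaschke.riemannianVolume
    rw [Measure.smul_apply, Measure.smul_apply, smul_eq_mul, smul_eq_mul, mul_left_comm]
    exact mul_le_mul_right h3 _
  have h5 := h4.trans h2
  rw [model_two N hD, ENNReal.ofReal_mul zero_le_two, ENNReal.ofReal_ofNat] at h5
  exact (ENNReal.mul_le_mul_iff_right two_ne_zero ENNReal.ofNat_ne_top).1 h5

end

end Vale.Agent.P231Z.Cov
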