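import Vale.Agent.P231.H775.Link
import Vale.Agent.P231Z.Sph.Pure
import Mathlib.Topology.Covering.Basic

/-! P231: a Blaschke manifold with cut multiplicity zero is doubly covered by a sphere. -/

set_option maxSynthPendingDepth 3
set_option linter.unusedSectionVars false

open Bundle Manifold Set Filter Module
open scoped ContDiff Manifold Topology

namespace Vale.Agent.P231Z.Cov

noncomputable section

open Vale.Agent.P234 Vale.Agent.P231 Vale.Agent.P231Z.Sph

/-- the quotient by a free involution is a covering map -/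
theorem cov_of {Y X : Type*} [TopologicalSpace Y] [T2Space Y] [CompactSpace Y]
    [TopologicalSpace X] [T2Space X] {q : Y → X} {σ : Y → Y} (hq : Continuous q)
    (hs : Function.Surjective q) (hσ : Continuous σ) (hi : ∀ y, q (σ y) = q y)
    (hn : ∀ y, σ y ≠ y) (hf : ∀ x y, q x = q y → x = y ∨ x = σ y) : IsCoveringMap q := by
  have h1 : Topology.IsQuotientMap q := hq.isClosedMap.isQuotientMap hq hs
  have h2 : IsOpenMap q := by
    intro U hU
    rw [← h1.isOpen_preimage]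
    have h3 : q ⁻¹' (q '' U) = U ∪ σ ⁻¹' U := by
      ext x
      constructor
      · rintro ⟨y, hy, h4⟩
        rcases hf y x h4 with rfl | rfl
        · exact Or.inl hy
        · exact Or.inr hy
      · rintro (h4 | h4)
        · exact ⟨x, h4, rfl⟩
        · exact ⟨σ x, h4, hi x⟩
    rw [h3]
    exact hU.union (hU.preimage hσ)
  rw [← isLocalHomeomorph_iff_isCoveringMap, isLocalHomeomorph_iff_isOpenEmbedding_restrict]
  intro y
  obtain ⟨A, B, hA, hB, hyA, hyB, hAB⟩ := t2_separation (hn y).symm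
  have hU : IsOpen (A ∩ σ ⁻¹' B) := hA.inter (hB.preimage hσ)
  refine ⟨A ∩ σ ⁻¹' B, hU.mem_nhds ⟨hyA, hyB⟩, ?_⟩
  refine Topology.IsOpenEmbedding.of_continuous_injective_isOpenMap
    (hq.comp continuous_subtype_val) ?_ (h2.comp hU.isOpenMap_subtype_val)
  rintro ⟨a, ha⟩ ⟨b, hb⟩ hab
  rcases hf a b hab with h | h
  · exact Subtype.ext h
  · exact absurd (h ▸ hb.2 : a ∈ B) (Set.disjoint_left.1 hAB ha.1)

variable {E : Type*} [NormedAddCommGroup E] [NormedSpace ℝ E] [FiniteDimensional ℝ E]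
  {M : Type*} [MetricSpace M] [ChartedSpace E M]
  [RiemannianBundle (fun x : M => TangentSpace 𝓘(ℝ, E) x)]
  [IsManifold 𝓘(ℝ, E) ∞ M]
  [IsContMDiffRiemannianBundle 𝓘(ℝ, E) ∞ E (fun x : M => TangentSpace 𝓘(ℝ, E) x)]
  {e : ∀ x : M, TangentSpace 𝓘(ℝ, E) x → M}

/-- a double cover in which through every point some geodesic of length `2 D` does not close -/
structure Dbl (e : ∀ x : M, TangentSpace 𝓘(ℝ, E) x → M) (D : ℝ) {Y : Type*} [TopologicalSpace Y]
    (q : Y → M) (σ : Y → Y) : Prop where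
  cov : IsCoveringMap q
  surj : Function.Surjective q
  cont : Continuous σ
  inv : ∀ y, q (σ y) = q y
  ne : ∀ y, σ y ≠ y
  fib : ∀ x y, q x = q y → x = y ∨ x = σ y
  geo : ∀ y, ∃ (u : E) (c : ℝ → Y), nm (q y) u = 1 ∧ Continuous c ∧
    (∀ t, q (c t) = gam e (q y) u t) ∧ c 0 = y ∧ c (2 * D) = σ y

theorem Dbl.invol {D : ℝ} {Y : Type*} [TopologicalSpace Y] {q : Y → M} {σ : Y → Y}
    (h : Dbl e D q σ) (y : Y) : σ (σ y) = y :=
  (h.fib (σ (σ y)) y ((h.inv _).trans (h.inv _))).resolve_right (h.ne _)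

theorem Dbl.comp {D : ℝ} {Y Z : Type*} [TopologicalSpace Y] [TopologicalSpace Z] {q : Y → M}
    {σ : Y → Y} (h : Dbl e D q σ) (φ : Z ≃ₜ Y) : Dbl e D (q ∘ φ) (φ.symm ∘ σ ∘ φ) where
  cov := h.cov.comp_homeomorph φ
  surj := h.surj.comp φ.surjective
  cont := φ.symm.continuous.comp (h.cont.comp φ.continuous)
  inv y := by simp [h.inv]
  ne y hy := h.ne (φ y) (by simpa using congrArg φ hy)
  fib x y hxy := by
    rcases h.fib _ _ hxy with h1 | h1
    · exact Or.inl (φ.injective h1)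
    · exact Or.inr (φ.injective (by simpa using h1))
  geo y := by
    obtain ⟨u, c, h1, h2, h3, h4, h5⟩ := h.geo (φ y)
    refine ⟨u, φ.symm ∘ c, h1, φ.symm.continuous.comp h2, fun t => ?_, ?_, ?_⟩
    · simpa using h3 t
    · simp [h4]
    · simp [h5]

theorem polar {V : Type*} [NormedAddCommGroup V] [NormedSpace ℝ V] {u₀ : V} (hu₀ : ‖u₀‖ = 1)
    (v : V) : ∃ u : V, ‖u‖ = 1 ∧ v = ‖v‖ • u := by
  rcases eq_or_ne v 0 with rfl | hv
  · exact ⟨u₀, hu₀, by rw [norm_zero, zero_smul]⟩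
  · have h1 : ‖v‖ ≠ 0 := norm_ne_zero_iff.2 hv
    refine ⟨‖v‖⁻¹ • v, by rw [norm_smul, norm_inv, norm_norm, inv_mul_cancel₀ h1], ?_⟩
    rw [smul_smul, mul_inv_cancel₀ h1, one_smul]

theorem exists_unit {N : ℕ} (hN : finrank ℝ E = N + 1) (p : M) :
    ∃ u : TangentSpace 𝓘(ℝ, E) p, ‖u‖ = 1 := by
  have h1 : 0 < finrank ℝ (TangentSpace 𝓘(ℝ, E) p) := by
    show 0 < finrank ℝ E
    omega
  have h2 : Nontrivial (TangentSpace 𝓘(ℝ, E) p) := Module.nontrivial_of_finrank_pos h1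
  exact exists_norm_eq _ zero_le_one

variable [CompactSpace M] [ConnectedSpace M] [IsRiemannianManifold 𝓘(ℝ, E) M]
  {H : Type*} [NormedAddCommGroup H] [InnerProductSpace ℝ H]
  {p : M} {e0 : H} {ι : TangentSpace 𝓘(ℝ, E) p →L[ℝ] H} {D : ℝ}

theorem S_shift (hD : 0 < D) {u : TangentSpace 𝓘(ℝ, E) p} (hu : ‖u‖ = 1) (r : ℝ) :
    S (Real.pi / (2 * D)) e0 ι ((r + 2 * D) • u) = -S (Real.pi / (2 * D)) e0 ι (r • u) := by
  have hk : Real.pi / (2 * D) ≠ 0 := (div_pos Real.pi_pos (by positivity)).ne'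
  have hkD : Real.pi / (2 * D) * (2 * D) = Real.pi := div_mul_cancel₀ _ (by positivity)
  rw [S_polar hk e0 ι hu, S_polar hk e0 ι hu, mul_add, hkD, Real.cos_add_pi, Real.sin_add_pi]
  module

theorem exp_of_S (F : Facts e) (hD : 0 < D) (hcl : ∀ (x : M) (v : E), nm x v = 2 * D → e x v = x)
    (h : Emb e0 ι) {u w : TangentSpace 𝓘(ℝ, E) p} (hu : ‖u‖ = 1) (hw : ‖w‖ = 1) {r s : ℝ}
    (hS : S (Real.pi / (2 * D)) e0 ι (s • w) = S (Real.pi / (2 * D)) e0 ι (r • u)) :
    e p (s • w) = e p (r • u) := by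
  set k := Real.pi / (2 * D) with hkd
  have hk : k ≠ 0 := (div_pos Real.pi_pos (by positivity)).ne'
  have hkD : k * (2 * D) = Real.pi := div_mul_cancel₀ _ (by positivity)
  have key : ∀ (w : TangentSpace 𝓘(ℝ, E) p) (s : ℝ) (m : ℤ), ‖w‖ = 1 →
      Real.sin (k * s) • w = Real.sin (k * r) • u → k * r = 2 * m * Real.pi + k * s →
      e p (s • w) = e p (r • u) := by
    intro w s m hw h1 h2
    have h3 : r = s + ((2 * m : ℤ) : ℝ) * (2 * D) := by
      refine mul_left_cancel₀ hk ?_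
      rw [h2, ← hkD]
      push_cast
      ring
    have h4 : Real.sin (k * r) = Real.sin (k * s) := by
      rw [h2, add_comm, show 2 * (m : ℝ) * Real.pi = m * (2 * Real.pi) by ring,
        Real.sin_add_int_mul_two_pi]
    rw [h3, symm_reduce F hD hcl hu]
    rw [h4, ← sub_eq_zero, ← smul_sub, smul_eq_zero] at h1
    rcases h1 with h1 | h1
    · obtain ⟨n, hn⟩ := Real.sin_eq_zero_iff.1 h1
      have h5 : s = 0 + (n : ℝ) * (2 * D) := by
        refine mul_left_cancel₀ hk ?_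
        rw [← hn, ← hkD]
        ring
      rw [h5, symm_reduce F hD hcl hu, symm_reduce F hD hcl hw, zero_smul, zero_smul]
    · rw [sub_eq_zero.1 h1]
  rw [S_polar hk e0 ι hu, S_polar hk e0 ι hw, ← map_smul, ← map_smul] at hS
  obtain ⟨h1, h2⟩ := h.pair_inj hS
  obtain ⟨m, h3 | h3⟩ := Real.cos_eq_cos_iff.1 h1
  · exact key w s m hw h2 h3
  · have h4 := key (-w) (-s) m (by rw [norm_neg, hw])
      (by rw [mul_neg, Real.sin_neg, neg_smul_neg, h2]) (by rw [h3]; ring)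
    rwa [neg_smul_neg] at h4

theorem S_of_exp (F : Facts e) (hD : 0 < D) (hB : InjGE e D)
    (hP : ∀ x y : M, dist x y = D → finrank ℝ (H775.Pl e D x y) = 0 + 1)
    {v w : TangentSpace 𝓘(ℝ, E) p} (hv : ‖v‖ ≤ D) (hw : ‖w‖ ≤ D) (hvw : e p v = e p w) :
    S (Real.pi / (2 * D)) e0 ι v = S (Real.pi / (2 * D)) e0 ι w ∨
      S (Real.pi / (2 * D)) e0 ι v = -S (Real.pi / (2 * D)) e0 ι w := by
  have h1 := hB p v hv
  have h2 := hB p w hw
  have h3 : ‖v‖ = ‖w‖ := by rw [← h1, ← h2, hvw]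
  rcases hw.lt_or_eq with h4 | h4
  · left
    rw [F.injDomain_unique (hB.mem_injDomain h4) h1 hvw]
  have hunit : ∀ a : TangentSpace 𝓘(ℝ, E) p, ‖a‖ = D → e p a = e p w →
      ‖D⁻¹ • a‖ = 1 ∧ D • D⁻¹ • a = a ∧ D⁻¹ • a ∈ H775.Pl e D (e p w) p := by
    intro a ha ha'
    have h5 : ‖D⁻¹ • a‖ = 1 := by
      rw [norm_smul, ha, Real.norm_of_nonneg (inv_pos.2 hD).le, inv_mul_cancel₀ hD.ne']
    have h6 : D • D⁻¹ • a = a := by rw [smul_smul, mul_inv_cancel₀ hD.ne', one_smul]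
    exact ⟨h5, h6, H775.Lk_subset_Pl D _ _ ⟨h5, by rw [h6, ha']⟩⟩
  obtain ⟨a1, a2, a3⟩ := hunit v (h3.trans h4) hvw
  obtain ⟨b1, b2, b3⟩ := hunit w h4 rfl
  have h5 := hP (e p w) p (by rw [dist_comm, h2, h4])
  have h6 : (⟨D⁻¹ • w, b3⟩ : H775.Pl e D (e p w) p) ≠ 0 := fun h7 => by
    have h8 : D⁻¹ • w = 0 := congrArg Subtype.val h7
    rw [h8, norm_zero] at b1
    exact zero_ne_one b1
  obtain ⟨c, hc⟩ := (finrank_eq_one_iff_of_nonzero' _ h6).1 h5 ⟨D⁻¹ • v, a3⟩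
  have h7 : c • D⁻¹ • w = D⁻¹ • v := congrArg Subtype.val hc
  have h8 : |c| = 1 := by
    have h9 := congrArg norm h7
    rwa [norm_smul, a1, b1, mul_one, Real.norm_eq_abs] at h9
  rcases (abs_eq zero_le_one).1 h8 with rfl | rfl
  · left
    rw [← a2, ← h7, one_smul, b2]
  · right
    have h9 := S_shift (e0 := e0) (ι := ι) hD b1 (-D)
    have h10 : (-D) • D⁻¹ • w = v := by rw [← a2, ← h7, neg_one_smul, smul_neg, neg_smul]
    rw [h10, show -D + 2 * D = D by ring, b2] at h9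
    rw [h9, neg_neg]

/-- **the double cover** -/
theorem exists_dbl (F : Facts e) (hD : 0 < D) (hB : InjGE e D) (hdiam : ∀ p q : M, dist p q ≤ D)
    (hP : ∀ x y : M, dist x y = D → finrank ℝ (H775.Pl e D x y) = 0 + 1) {N : ℕ}
    (hN : finrank ℝ E = N + 1) :
    ∃ q : Metric.sphere (0 : EuclideanSpace ℝ (Fin (N + 2))) 1 → M, Dbl e D q (fun y => -y) := by
  obtain ⟨p⟩ : Nonempty M := inferInstance
  obtain ⟨u₀, hu₀⟩ := exists_unit hN p
  obtain ⟨ι, h⟩ := exists_emb (V := TangentSpace 𝓘(ℝ, E) p) (n := N + 1) hN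
  have hcl : ∀ (x : M) (v : E), nm x v = 2 * D → e x v = x :=
    fun x v hv => closed_of_inj_diam F hD hB hdiam x v hv
  have hk : 0 < Real.pi / (2 * D) := div_pos Real.pi_pos (by positivity)
  have hkD : Real.pi / (2 * D) * (2 * D) = Real.pi := div_mul_cancel₀ _ (by positivity)
  obtain ⟨T, hT⟩ : ∃ T : TangentSpace 𝓘(ℝ, E) p →
      Metric.sphere (0 : EuclideanSpace ℝ (Fin (N + 2))) 1,
      ∀ v, (T v).1 = S (Real.pi / (2 * D)) (EuclideanSpace.single 0 1) ι v :=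
    ⟨fun v => ⟨_, mem_sphere_zero_iff_norm.2 (norm_S h hk.ne' v)⟩, fun _ => rfl⟩
  have hTc : Continuous T := by
    refine continuous_induced_rng.2 ?_
    have h1 : Subtype.val ∘ T = S (Real.pi / (2 * D)) (EuclideanSpace.single 0 1) ι := funext hT
    rw [h1]
    have h2 : Continuous fun v : TangentSpace 𝓘(ℝ, E) p => Real.pi / (2 * D) * ‖v‖ :=
      continuous_const.mul continuous_norm
    exact ((Real.continuous_cos.comp h2).smul continuous_const).add
      ((continuous_const.mul (Real.continuous_sinc.comp h2)).smul ι.continuous)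
  have hTs : ∀ z, ∃ v, ‖v‖ ≤ 2 * D ∧ T v = z := fun z => by
    obtain ⟨v, h1, h2⟩ := S_surj h hk hu₀ (mem_sphere_zero_iff_norm.1 z.2)
    refine ⟨v, le_of_mul_le_mul_left ?_ hk, Subtype.ext ((hT v).trans h2)⟩
    rwa [hkD]
  have hTn : ∀ (u : TangentSpace 𝓘(ℝ, E) p) (r : ℝ), ‖u‖ = 1 → T ((r + 2 * D) • u) = -T (r • u) :=
    fun u r hu => Subtype.ext (by rw [hT, coe_neg_sphere, hT, S_shift hD hu])
  choose L hL1 hL2 using hTs
  have hq : ∀ v, e p (L (T v)) = e p v := fun v => by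
    obtain ⟨u, hu, h1⟩ := polar hu₀ v
    obtain ⟨w, hw, h2⟩ := polar hu₀ (L (T v))
    have h3 := exp_of_S F hD hcl h hu hw (r := ‖v‖) (s := ‖L (T v)‖)
      (by rw [← h1, ← h2, ← hT, ← hT, hL2])
    rwa [← h1, ← h2] at h3
  have hinv : ∀ y, e p (L (-y)) = e p (L y) := fun y => by
    obtain ⟨u, hu, h1⟩ := polar hu₀ (L y)
    have h2 := hTn u ‖L y‖ hu
    rw [← h1, hL2] at h2
    have h3 := symm_reduce F hD hcl hu 1 ‖L y‖
    rw [Int.cast_one, one_mul, ← h1] at h3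
    rw [← h2, hq, h3]
  have hce : Continuous (e p) := (contMDiff_exp_fiber F.isExp p).continuous
  have hcont : Continuous fun y => e p (L y) := by
    have h1 : ProperSpace (TangentSpace 𝓘(ℝ, E) p) := FiniteDimensional.proper_real _
    have h2 : CompactSpace (Metric.closedBall (0 : TangentSpace 𝓘(ℝ, E) p) (2 * D)) :=
      isCompact_iff_compactSpace.1 (isCompact_closedBall _ _)
    have h3 : Continuous fun v : Metric.closedBall (0 : TangentSpace 𝓘(ℝ, E) p) (2 * D) =>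
        T v.1 := hTc.comp continuous_subtype_val
    have h4 := h3.isClosedMap.isQuotientMap h3 fun z =>
      ⟨⟨L z, mem_closedBall_zero_iff.2 (hL1 z)⟩, hL2 z⟩
    rw [h4.continuous_iff]
    exact (hce.comp continuous_subtype_val).congr fun v => (hq v.1).symm
  have hsurj : Function.Surjective fun y => e p (L y) := fun x => by
    obtain ⟨v, h1, -⟩ := F.hopfRinow p x
    exact ⟨T v, (hq v).trans h1⟩
  have hhalf : ∀ y, ∃ v, ‖v‖ ≤ D ∧ e p v = e p (L y) ∧ (y = T v ∨ y = -T v) := fun y => by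
    rcases le_total ‖L y‖ D with h1 | h1
    · exact ⟨L y, h1, rfl, Or.inl (hL2 y).symm⟩
    · obtain ⟨u, hu, h2⟩ := polar hu₀ (L y)
      have h3 := hTn u (‖L y‖ - 2 * D) hu
      rw [sub_add_cancel, ← h2, hL2] at h3
      refine ⟨(‖L y‖ - 2 * D) • u, ?_, ?_, Or.inr h3⟩
      · rw [norm_smul, hu, mul_one, Real.norm_eq_abs, abs_le]
        constructor <;> linarith [hL1 y]
      · rw [← hq, ← hinv, ← h3]
  have hfib : ∀ x y, e p (L x) = e p (L y) → x = y ∨ x = -y := fun x y hxy => by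
    obtain ⟨v, h1, h2, h3⟩ := hhalf x
    obtain ⟨w, h4, h5, h6⟩ := hhalf y
    have h7 : T v = T w ∨ T v = -T w := by
      rcases S_of_exp (e0 := EuclideanSpace.single 0 1) (ι := ι) F hD hB hP h1 h4
        (h2.trans (hxy.trans h5.symm)) with h8 | h8
      · exact Or.inl (Subtype.ext (by rw [hT, hT, h8]))
      · exact Or.inr (Subtype.ext (by rw [hT, coe_neg_sphere, hT, h8]))
    rcases h3 with rfl | rfl <;> rcases h6 with rfl | rfl <;> rcases h7 with h7 | h7 <;>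
      simp [h7]
  have hne : ∀ y : Metric.sphere (0 : EuclideanSpace ℝ (Fin (N + 2))) 1, -y ≠ y :=
    fun y => (ne_neg_of_mem_unit_sphere ℝ y).symm
  refine ⟨fun y => e p (L y), cov_of hcont hsurj continuous_neg hinv hne hfib, hsurj,
    continuous_neg, hinv, hne, hfib, fun y => ?_⟩
  obtain ⟨u, hu, h1⟩ := polar hu₀ (L y)
  have h2 : e p (L y) = gam e p u ‖L y‖ := congrArg (e p) h1
  refine ⟨vel e p u ‖L y‖, fun t => T ((‖L y‖ + t) • u), ?_, ?_, fun t => ?_, ?_, ?_⟩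
  · show nm (e p (L y)) _ = 1
    rw [h2]
    exact (nm_vel F p u _).trans hu
  · exact hTc.comp ((continuous_const.add continuous_id).smul continuous_const)
  · show e p (L (T _)) = gam e (e p (L y)) _ t
    rw [hq, h2]
    exact (gam_flow F p u _ t).symm
  · show T _ = y
    rw [add_zero, ← h1, hL2]
  · show T _ = -y
    rw [hTn u _ hu, ← h1, hL2]

end

end Vale.Agent.P231Z.Cov
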