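import Vale.Agent.P231Z.Cov.Mfd
import Vale.Agent.P231Z.Cov.Dbl
import Mathlib.Topology.Homotopy.Lifting

/-! P231: the exponential map of a Riemannian covering; the double cover is a Blaschke manifold. -/

set_option maxSynthPendingDepth 3
set_option linter.unusedSectionVars false

open Bundle Manifold Set Filter Module
open scoped ContDiff Manifold Topology ENNReal

namespace Vale.Agent.P231Z.Cov

noncomputable section

open Vale.Agent.P234 Vale.Agent.P231

variable {E : Type*} [NormedAddCommGroup E] [NormedSpace ℝ E] [FiniteDimensional ℝ E]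
  {M : Type*} [MetricSpace M] [ChartedSpace E M]
  [RiemannianBundle (fun x : M => TangentSpace 𝓘(ℝ, E) x)]
  [IsManifold 𝓘(ℝ, E) ∞ M]
  [IsContMDiffRiemannianBundle 𝓘(ℝ, E) ∞ E (fun x : M => TangentSpace 𝓘(ℝ, E) x)]
  [CompactSpace M] [ConnectedSpace M] [IsRiemannianManifold 𝓘(ℝ, E) M]
  {e : ∀ x : M, TangentSpace 𝓘(ℝ, E) x → M}
  {Y : Type*} [MetricSpace Y] [ChartedSpace E Y]
  [RiemannianBundle (fun x : Y => TangentSpace 𝓘(ℝ, E) x)]
  [IsManifold 𝓘(ℝ, E) ∞ Y]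
  [IsContMDiffRiemannianBundle 𝓘(ℝ, E) ∞ E (fun x : Y => TangentSpace 𝓘(ℝ, E) x)]
  [CompactSpace Y] [ConnectedSpace Y] [IsRiemannianManifold 𝓘(ℝ, E) Y]
  {e' : ∀ x : Y, TangentSpace 𝓘(ℝ, E) x → Y} {q : Y → M}

theorem Iso.nm_eq (h : Iso E q) (y : Y) (v : E) : nm y v = nm (q y) v := h.nrm y v

theorem Iso.edist_le' (h : Iso E q) (x y : Y) : edist (q x) (q y) ≤ edist x y := by
  rw [IsRiemannianManifold.out (I := 𝓘(ℝ, E)) (q x) (q y),
    IsRiemannianManifold.out (I := 𝓘(ℝ, E)) x y]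
  exact h.edist_le x y

theorem Iso.dist_le (h : Iso E q) (x y : Y) : dist (q x) (q y) ≤ dist x y := by
  have h1 := h.edist_le' x y
  rwa [edist_dist, edist_dist, ENNReal.ofReal_le_ofReal_iff dist_nonneg] at h1

/-- the lift of the exponential map -/
structure Lift (e : ∀ x : M, TangentSpace 𝓘(ℝ, E) x → M)
    (e' : ∀ x : Y, TangentSpace 𝓘(ℝ, E) x → Y) (q : Y → M) : Prop where
  cont : Continuous fun a : TangentBundle 𝓘(ℝ, E) Y => e' a.proj a.snd
  eq : ∀ (y : Y) (v : E), q (e' y v) = e (q y) v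
  zero : ∀ y, e' y 0 = y

theorem exists_lift (F : Facts e) (h : Iso E q) (hc : IsCoveringMap q) :
    ∃ e' : ∀ x : Y, TangentSpace 𝓘(ℝ, E) x → Y, Lift e e' q := by
  have h1 : Continuous fun z : unitInterval × TangentBundle 𝓘(ℝ, E) Y =>
      gam e (q z.2.proj) (z.2.snd : E) (z.1 : ℝ) := by
    have h2 := (FiberBundle.continuous_proj E (TangentSpace 𝓘(ℝ, E) : M → Type _)).comp
      (contMDiff_flow F).continuous
    have h3 : Continuous fun z : unitInterval × TangentBundle 𝓘(ℝ, E) Y =>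
        ((z.1 : ℝ), (⟨q z.2.proj, z.2.snd⟩ : TangentBundle 𝓘(ℝ, E) M)) :=
      (continuous_subtype_val.comp continuous_fst).prodMk
        (h.toCh.contMDiff_tangent.continuous.comp continuous_snd)
    exact h2.comp h3
  let H : C(unitInterval × TangentBundle 𝓘(ℝ, E) Y, M) := ⟨_, h1⟩
  let f : C(TangentBundle 𝓘(ℝ, E) Y, Y) :=
    ⟨TotalSpace.proj, FiberBundle.continuous_proj E (TangentSpace 𝓘(ℝ, E) : Y → Type _)⟩
  have h0 : ∀ a, H (0, a) = q (f a) := fun a => gam_zero F.isExp _ _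
  have h4 : ∀ z, q (hc.liftHomotopy H f h0 z) = H z := congrFun (hc.liftHomotopy_lifts H f h0)
  refine ⟨fun y v => hc.liftHomotopy H f h0 (1, ⟨y, v⟩),
    (hc.liftHomotopy H f h0).continuous.comp (Continuous.prodMk_right 1), fun y v => ?_,
    fun y => ?_⟩
  · refine (h4 _).trans ?_
    exact congrArg (e (q y)) (one_smul ℝ v)
  · have h5 : ∀ s : unitInterval, H (s, ⟨y, 0⟩) = q y := fun s =>
      (congrArg (e (q y)) (smul_zero (s : ℝ))).trans (F.isExp.map_zero _)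
    have h6 := hc.const_of_comp (g := fun s : unitInterval => hc.liftHomotopy H f h0 (s, ⟨y, 0⟩))
      ((hc.liftHomotopy H f h0).continuous.comp (Continuous.prodMk_left _))
      (fun a a' => by rw [h4, h4, h5, h5]) 1 0
    exact h6.trans (hc.liftHomotopy_zero H f h0 _)

theorem Lift.cont_fib (L : Lift e e' q) (y : Y) : Continuous (e' y) :=
  L.cont.comp (FiberBundle.continuous_totalSpaceMk E (TangentSpace 𝓘(ℝ, E) : Y → Type _) y)

theorem Lift.cont_gam (L : Lift e e' q) (y : Y) (v : E) : Continuous (gam e' y v) := by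
  have h1 : Continuous fun t : ℝ => t • v := continuous_id.smul continuous_const
  exact (L.cont_fib y).comp h1

theorem Lift.comp_gam (L : Lift e e' q) (y : Y) (v : E) : q ∘ gam e' y v = gam e (q y) v :=
  funext fun t => L.eq y (t • v)

theorem Lift.gam_zero (L : Lift e e' q) (y : Y) (v : E) : gam e' y v 0 = y :=
  (congrArg (e' y) (zero_smul ℝ v)).trans (L.zero y)

theorem contMDiff_gam (F : Facts e) (x : M) (v : E) :
    ContMDiff 𝓘(ℝ, ℝ) 𝓘(ℝ, E) ∞ (gam e x v) := by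
  have h1 : ∀ w : TangentSpace 𝓘(ℝ, E) x, ContMDiff 𝓘(ℝ, ℝ) 𝓘(ℝ, TangentSpace 𝓘(ℝ, E) x) ∞
      (fun t : ℝ => t • w) := fun w => (contDiff_id.smul contDiff_const).contMDiff
  exact (contMDiff_exp_fiber F.isExp x).comp (h1 v)

theorem Lift.contMDiff_gam (L : Lift e e' q) (F : Facts e) (h : Iso E q) (y : Y) (v : E) :
    ContMDiff 𝓘(ℝ, ℝ) 𝓘(ℝ, E) ∞ (gam e' y v) := fun t => by
  rw [h.toCh.contMDiffAt_iff (L.cont_gam y v).continuousAt, L.comp_gam]
  exact Cov.contMDiff_gam F _ _ t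

theorem Lift.dist_le (L : Lift e e' q) (F : Facts e) (h : Iso E q) (y : Y) (v : E) {s t : ℝ}
    (hst : s ≤ t) : dist (gam e' y v s) (gam e' y v t) ≤ nm y v * (t - s) := by
  have h1 := L.contMDiff_gam F h y v
  have h2 := riemannianEDist_le_pathELength (I := 𝓘(ℝ, E)) (γ := gam e' y v) (a := s) (b := t)
    (h1.of_le (by simp)).contMDiffOn rfl rfl hst
  rw [← h.pathELength_comp fun r _ => (h1 r).mdifferentiableAt (by simp), L.comp_gam,
    pathELength_eq_lintegral_mfderiv_Icc] at h2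
  have h3 : ∀ r : ℝ, ‖mfderiv 𝓘(ℝ, ℝ) 𝓘(ℝ, E) (gam e (q y) v) r (1 : ℝ)‖ₑ =
      ENNReal.ofReal (nm y v) := fun r => by
    rw [← ofReal_norm, mfderiv_gam F.isExp, h.nm_eq]
    exact congrArg ENNReal.ofReal (nm_vel F (q y) v r)
  have h4 : ∫⁻ r in Icc s t, ‖mfderiv 𝓘(ℝ, ℝ) 𝓘(ℝ, E) (gam e (q y) v) r (1 : ℝ)‖ₑ =
      ENNReal.ofReal (nm y v * (t - s)) := by
    rw [MeasureTheory.lintegral_congr h3, MeasureTheory.setLIntegral_const, Real.volume_Icc,
      ENNReal.ofReal_mul (nm_nonneg _ _)]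
  have h5 := h2.trans_eq h4
  rwa [← IsRiemannianManifold.out, edist_dist,
    ENNReal.ofReal_le_ofReal_iff (mul_nonneg (nm_nonneg _ _) (sub_nonneg.2 hst))] at h5

theorem Lift.isExp (L : Lift e e' q) (F : Facts e) (h : Iso E q) : IsExp e' where
  smooth a := by
    rw [h.toCh.contMDiffAt_iff L.cont.continuousAt]
    have h1 := (F.isExp.smooth.comp h.toCh.contMDiff_tangent) a
    exact h1.congr_of_eventuallyEq (Eventually.of_forall fun b => L.eq b.proj b.snd)
  map_zero := L.zero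
  velocity y v := by
    have h1 := h.toCh.mfderiv_comp
      ((L.contMDiff_gam F h y v 0).mdifferentiableAt (by simp))
    have h2 := congrArg (fun c : ℝ → M => (mfderiv 𝓘(ℝ, ℝ) 𝓘(ℝ, E) c 0 (1 : ℝ) : E))
      (L.comp_gam y v)
    exact h1.symm.trans (h2.trans (F.isExp.velocity (q y) v))
  minimizing := by
    obtain ⟨ρ, hρ, h1⟩ := F.isExp.minimizing
    refine ⟨ρ, hρ, fun y v s t hst => le_antisymm ?_ ?_⟩
    · rcases le_total s t with h2 | h2
      · rw [abs_of_nonneg (sub_nonneg.2 h2)]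
        exact L.dist_le F h y v h2
      · rw [abs_sub_comm, abs_of_nonneg (sub_nonneg.2 h2), dist_comm]
        exact L.dist_le F h y v h2
    · have h2 : ‖v‖ = nm (E := E) (q y) v := h.nm_eq y v
      have h3 := h1 (q y) v s t (by rw [h2] at hst; exact hst)
      have h4 := h.dist_le (e' y (s • v)) (e' y (t • v))
      rw [L.eq y (s • v : TangentSpace 𝓘(ℝ, E) y), L.eq y (t • v : TangentSpace 𝓘(ℝ, E) y)] at h4
      rw [h2]
      exact h3.symm.trans_le h4

variable {D : ℝ} {σ : Y → Y}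

theorem Lift.anti (L : Lift e e' q) (h : Iso E q) (hd : Dbl e D q σ) (hD : 0 < D)
    (hcl : ∀ (x : M) (v : E), nm x v = 2 * D → e x v = x) (hE : 1 < finrank ℝ E) (y : Y)
    {u : TangentSpace 𝓘(ℝ, E) y} (hu : ‖u‖ = 1) : e' y ((2 * D) • u) = σ y := by
  obtain ⟨u₀, c, h1, h2, h3, h4, h5⟩ := hd.geo y
  have h6 : gam e' y u₀ = c := hd.cov.eq_of_comp_eq (L.cont_gam y u₀) h2
    ((L.comp_gam y u₀).trans (funext h3).symm) 0 ((L.gam_zero y u₀).trans h4.symm)
  have h7 : 1 < Module.rank ℝ (TangentSpace 𝓘(ℝ, E) y) := by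
    rw [← Module.finrank_eq_rank]
    exact_mod_cast hE
  have h8 : ∀ a ∈ Metric.sphere (0 : TangentSpace 𝓘(ℝ, E) y) 1,
      q (e' y ((2 * D) • a)) = q y := fun a ha => by
    refine (L.eq y _).trans (hcl _ _ ?_)
    refine (h.nm_eq y _).symm.trans ?_
    show ‖(2 * D) • a‖ = _
    rw [norm_smul, mem_sphere_zero_iff_norm.1 ha, mul_one, Real.norm_of_nonneg (by positivity)]
  have h9 := hd.cov.constOn_of_comp (g := fun a : TangentSpace 𝓘(ℝ, E) y => e' y ((2 * D) • a))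
    (isPreconnected_sphere h7 0 1)
    ((L.cont_fib y).comp (continuous_const.smul continuous_id)).continuousOn
    (fun a ha b hb => (h8 a ha).trans (h8 b hb).symm) (mem_sphere_zero_iff_norm.2 hu)
    (mem_sphere_zero_iff_norm.2 ((h.nm_eq y u₀).trans h1))
  exact h9.trans ((congrFun h6 (2 * D)).trans h5)

theorem Lift.shift (L : Lift e e' q) (F : Facts e) (h : Iso E q) (hd : Dbl e D q σ) (hD : 0 < D)
    (hcl : ∀ (x : M) (v : E), nm x v = 2 * D → e x v = x) (hE : 1 < finrank ℝ E) (y : Y)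
    {u : TangentSpace 𝓘(ℝ, E) y} (hu : ‖u‖ = 1) (t : ℝ) :
    e' y ((t + 2 * D) • u) = σ (e' y (t • u)) := by
  have h1 : (fun t => gam e' y u (t + 2 * D)) = fun t => σ (gam e' y u t) := by
    refine hd.cov.eq_of_comp_eq ((L.cont_gam y u).comp (continuous_id.add continuous_const))
      (hd.cont.comp (L.cont_gam y u)) (funext fun t => ?_) 0 ?_
    · have h2 := symm_reduce F hD hcl (x := q y) (u := u) ((h.nm_eq y u).symm.trans hu) 1 t
      rw [Int.cast_one, one_mul] at h2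
      exact (L.eq y _).trans (h2.trans ((hd.inv _).trans (L.eq y _)).symm)
    · show gam e' y u (0 + 2 * D) = σ (gam e' y u 0)
      rw [zero_add, L.gam_zero y u]
      exact L.anti h hd hD hcl hE y hu
  exact congrFun h1 t

theorem dist_gam (F : Facts e) (hD : 0 < D) (hB : InjGE e D)
    (hcl : ∀ (x : M) (v : E), nm x v = 2 * D → e x v = x) {x : M}
    {u : TangentSpace 𝓘(ℝ, E) x} (hu : ‖u‖ = 1) {t : ℝ} (h0 : 0 ≤ t) (h1 : t ≤ 2 * D) :
    dist x (e x (t • u)) = min t (2 * D - t) := by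
  rcases le_total t D with h2 | h2
  · have h3 : ‖t • u‖ = t := by rw [norm_smul, hu, mul_one, Real.norm_of_nonneg h0]
    rw [hB x _ (h3.trans_le h2), h3, min_eq_left (by linarith)]
  · have h3 : ‖(t - 2 * D) • u‖ = 2 * D - t := by
      rw [norm_smul, hu, mul_one, Real.norm_eq_abs, abs_sub_comm, abs_of_nonneg (by linarith)]
    have h4 := symm_reduce F hD hcl hu 1 (t - 2 * D)
    rw [Int.cast_one, one_mul, sub_add_cancel] at h4
    rw [h4, hB x _ (h3.trans_le (by linarith)), h3, min_eq_right (by linarith)]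

theorem Lift.injGE (L : Lift e e' q) (F : Facts e) (h : Iso E q) (hd : Dbl e D q σ) (hD : 0 < D)
    (hB : InjGE e D) (hcl : ∀ (x : M) (v : E), nm x v = 2 * D → e x v = x) {N : ℕ} (h1 : 1 ≤ N)
    (hN : finrank ℝ E = N + 1) : InjGE e' (2 * D) := by
  intro y v hv
  have F' : Facts e' := facts_of_isExp (L.isExp F h)
  refine le_antisymm (dist_exp_le' F'.isExp y v) ?_
  obtain ⟨w, h2, h3⟩ := F'.hopfRinow y (e' y v)
  have h4 : ‖w‖ ≤ ‖v‖ := h3.symm.trans_le (dist_exp_le' F'.isExp y v)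
  rw [h3]
  by_contra h5
  have h6 : ‖w‖ < ‖v‖ := not_le.1 h5
  obtain ⟨u₀, hu₀⟩ := exists_unit hN y
  obtain ⟨a, ha, h7⟩ := polar hu₀ v
  obtain ⟨b, hb, h8⟩ := polar hu₀ w
  have h9 : e (q y) (‖w‖ • b : TangentSpace 𝓘(ℝ, E) y) =
      e (q y) (‖v‖ • a : TangentSpace 𝓘(ℝ, E) y) := by
    rw [← h7, ← h8]
    exact (L.eq y w).symm.trans ((congrArg q h2).trans (L.eq y v))
  have ha' : nm (E := E) (q y) a = 1 := (h.nm_eq y a).symm.trans ha
  have hb' : nm (E := E) (q y) b = 1 := (h.nm_eq y b).symm.trans hb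
  have h10 := dist_gam F hD hB hcl (x := q y) (u := a) ha' (norm_nonneg v) hv
  have h11 := dist_gam F hD hB hcl (x := q y) (u := b) hb' (norm_nonneg w) (h4.trans hv)
  have h12 : min ‖w‖ (2 * D - ‖w‖) = min ‖v‖ (2 * D - ‖v‖) :=
    h11.symm.trans ((congrArg (dist (q y)) h9).trans h10)
  have h13 : ‖w‖ = 2 * D - ‖v‖ := by
    rcases min_cases ‖w‖ (2 * D - ‖w‖) with h14 | h14 <;>
      rcases min_cases ‖v‖ (2 * D - ‖v‖) with h15 | h15 <;> linarith [h14.1, h14.2, h15.1, h15.2]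
  have h14 : nm (E := E) (q y) w < D := by
    refine (h.nm_eq y w).symm.trans_lt ?_
    show ‖w‖ < D
    linarith
  have h15 := symm_reduce F hD hcl (x := q y) (u := a) ha' 1 (‖v‖ - 2 * D)
  rw [Int.cast_one, one_mul, sub_add_cancel] at h15
  have h16 : nm (E := E) (q y) ((‖v‖ - 2 * D) • a : TangentSpace 𝓘(ℝ, E) y) ≤ D := by
    refine (nm_smul (E := E) (q y) a _).trans_le ?_
    rw [ha', mul_one, abs_le]
    constructor <;> linarith
  have h17 : e (q y) ((‖v‖ - 2 * D) • a : TangentSpace 𝓘(ℝ, E) y) = e (q y) w := by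
    refine h15.symm.trans (h9.symm.trans ?_)
    rw [← h8]
  have h18 : ((‖v‖ - 2 * D) • a : TangentSpace 𝓘(ℝ, E) y) = w :=
    F.injDomain_unique (hB.mem_injDomain h14) (hB (q y) _ h16) h17
  have h19 := L.shift F h hd hD hcl (by omega) y ha (‖v‖ - 2 * D)
  rw [sub_add_cancel, ← h7, h18, h2] at h19
  exact hd.ne _ h19.symm

theorem Lift.diam (L : Lift e e' q) (F : Facts e) (h : Iso E q) (hd : Dbl e D q σ) (hD : 0 < D)
    (hdiam : ∀ p q : M, dist p q ≤ D)
    (hcl : ∀ (x : M) (v : E), nm x v = 2 * D → e x v = x) {N : ℕ} (h1 : 1 ≤ N)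
    (hN : finrank ℝ E = N + 1) (x y : Y) : dist x y ≤ 2 * D := by
  have he' := L.isExp F h
  obtain ⟨v, h2, h3⟩ := F.hopfRinow (q x) (q y)
  obtain ⟨w, hw⟩ : ∃ w : TangentSpace 𝓘(ℝ, E) x, (w : E) = v := ⟨v, rfl⟩
  have h4 : ‖w‖ ≤ D := by
    refine (h.nm_eq x w).trans_le ?_
    rw [hw]
    exact h3.symm.trans_le (hdiam _ _)
  have h5 : q y = q (e' x w) := by
    refine Eq.trans ?_ (L.eq x w).symm
    rw [hw]
    exact h2.symm
  rcases hd.fib _ _ h5 with h6 | h6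
  · rw [h6]
    linarith [dist_exp_le' he' x w]
  · obtain ⟨u₀, hu₀⟩ := exists_unit hN x
    obtain ⟨a, ha, h7⟩ := polar hu₀ w
    have h8 := L.shift F h hd hD hcl (by omega) x ha (‖w‖ - 2 * D)
    rw [sub_add_cancel, ← h7] at h8
    rw [h6, h8, hd.invol]
    refine (dist_exp_le' he' x _).trans ?_
    rw [norm_smul, ha, mul_one, Real.norm_eq_abs, abs_le]
    constructor <;> linarith [norm_nonneg w]

theorem Lift.pl (L : Lift e e' q) (F : Facts e) (h : Iso E q) (hd : Dbl e D q σ) (hD : 0 < D)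
    (hcl : ∀ (x : M) (v : E), nm x v = 2 * D → e x v = x) {N : ℕ} (h1 : 1 ≤ N)
    (hN : finrank ℝ E = N + 1) (x y : Y) (hxy : dist x y = 2 * D) :
    finrank ℝ (H775.Pl e' (2 * D) x y) = N + 1 := by
  have F' : Facts e' := facts_of_isExp (L.isExp F h)
  obtain ⟨v, h2, h3⟩ := F'.hopfRinow y x
  obtain ⟨u₀, hu₀⟩ := exists_unit hN y
  obtain ⟨a, ha, h4⟩ := polar hu₀ v
  rw [← h3, dist_comm, hxy] at h4
  have h5 : x = σ y := by rw [← h2, h4, L.anti h hd hD hcl (by omega) y ha]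
  have h6 : H775.Pl e' (2 * D) x y = ⊤ := by
    rw [eq_top_iff]
    rintro w -
    obtain ⟨b, hb, h7⟩ := polar hu₀ w
    rw [h7]
    exact Submodule.smul_mem _ _ (H775.Lk_subset_Pl _ _ _
      ⟨hb, (L.anti h hd hD hcl (by omega) y hb).trans h5.symm⟩)
  rw [h6, finrank_top]
  exact hN

end

end Vale.Agent.P231Z.Cov
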