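import Mathlib.Geometry.Manifold.Riemannian.Basic
import Mathlib.Geometry.Manifold.ContMDiffMFDeriv
import Mathlib.Topology.IsLocalHomeomorph

/-! P231: the Riemannian manifold structure on the total space of a local homeomorphism. -/

set_option maxSynthPendingDepth 3
set_option linter.unusedSectionVars false

open Bundle Manifold Set Filter
open scoped ContDiff Manifold Topology ENNReal

namespace Vale.Agent.P231Z.Cov

noncomputable section

section Abs

variable {E : Type*} [NormedAddCommGroup E] [NormedSpace ℝ E]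
  {M : Type*} [TopologicalSpace M] [ChartedSpace E M]
  {Y : Type*} [TopologicalSpace Y] [ChartedSpace E Y]

/-- the preferred charts of `Y` are pulled back from those of `M` -/
structure Ch (E : Type*) [TopologicalSpace E] {M : Type*} [TopologicalSpace M] [ChartedSpace E M]
    {Y : Type*} [TopologicalSpace Y] [ChartedSpace E Y] (q : Y → M) : Prop where
  cont : Continuous q
  src : ∀ y₀ y, y ∈ (chartAt E y₀).source → q y ∈ (chartAt E (q y₀)).source
  eq : ∀ y₀ y, y ∈ (chartAt E y₀).source → chartAt E y₀ y = chartAt E (q y₀) (q y)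

variable {q : Y → M} (h : Ch E q)
include h

theorem Ch.symm (y₀ : Y) {z : E} (hz : z ∈ (chartAt E y₀).target) :
    q ((chartAt E y₀).symm z) = (chartAt E (q y₀)).symm z := by
  have h1 := (chartAt E y₀).map_target hz
  have h2 := h.eq y₀ _ h1
  rw [(chartAt E y₀).right_inv hz] at h2
  conv_rhs => rw [h2]
  rw [(chartAt E (q y₀)).left_inv (h.src y₀ _ h1)]

theorem Ch.ext_ev {X : Type*} [TopologicalSpace X] {f : X → Y} {x : X} (hf : ContinuousAt f x) :
    (extChartAt 𝓘(ℝ, E) (f x) ∘ f) =ᶠ[𝓝 x] (extChartAt 𝓘(ℝ, E) (q (f x)) ∘ (q ∘ f)) := by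
  filter_upwards [hf.preimage_mem_nhds (chart_source_mem_nhds E (f x))] with x' hx'
  exact h.eq (f x) (f x') hx'

theorem Ch.contMDiffAt_iff {E' : Type*} [NormedAddCommGroup E'] [NormedSpace ℝ E']
    {H' : Type*} [TopologicalSpace H'] {I' : ModelWithCorners ℝ E' H'}
    {X : Type*} [TopologicalSpace X] [ChartedSpace H' X] {n : ℕ∞ω} {f : X → Y} {x : X}
    (hf : ContinuousAt f x) :
    ContMDiffAt I' 𝓘(ℝ, E) n f x ↔ ContMDiffAt I' 𝓘(ℝ, E) n (q ∘ f) x := by
  rw [contMDiffAt_iff_target, contMDiffAt_iff_target (f := q ∘ f)]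
  have h1 : ContinuousAt (q ∘ f) x := h.cont.continuousAt.comp hf
  simp only [hf, h1, true_and]
  exact ⟨fun h2 => h2.congr_of_eventuallyEq (h.ext_ev hf).symm,
    fun h2 => h2.congr_of_eventuallyEq (h.ext_ev hf)⟩

theorem Ch.contMDiff (n : ℕ∞ω) : ContMDiff 𝓘(ℝ, E) 𝓘(ℝ, E) n q := fun _ =>
  (h.contMDiffAt_iff (f := id) continuousAt_id).1 contMDiffAt_id

theorem Ch.hasMFDerivAt (y : Y) : HasMFDerivAt 𝓘(ℝ, E) 𝓘(ℝ, E) q y
    (ContinuousLinearMap.id ℝ E : TangentSpace 𝓘(ℝ, E) y →L[ℝ] TangentSpace 𝓘(ℝ, E) (q y)) := by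
  refine ⟨h.cont.continuousAt, ?_⟩
  have h1 : writtenInExtChartAt 𝓘(ℝ, E) 𝓘(ℝ, E) y q =ᶠ[𝓝 (extChartAt 𝓘(ℝ, E) y y)] id := by
    filter_upwards [chart_target_mem_nhds E y] with z hz
    have h2 := h.eq y _ ((chartAt E y).map_target hz)
    rw [(chartAt E y).right_inv hz] at h2
    exact h2.symm
  exact ((hasFDerivAt_id _).congr_of_eventuallyEq h1).hasFDerivWithinAt

theorem Ch.mfderiv_comp {f : ℝ → Y} {t : ℝ} (hf : MDifferentiableAt 𝓘(ℝ, ℝ) 𝓘(ℝ, E) f t) :
    (mfderiv 𝓘(ℝ, ℝ) 𝓘(ℝ, E) (q ∘ f) t (1 : ℝ) : E) = mfderiv 𝓘(ℝ, ℝ) 𝓘(ℝ, E) f t (1 : ℝ) := by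
  rw [((h.hasMFDerivAt (f t)).comp t hf.hasMFDerivAt).mfderiv]
  rfl

variable [IsManifold 𝓘(ℝ, E) ∞ M] [IsManifold 𝓘(ℝ, E) ∞ Y]

theorem Ch.coord {y₀ y₁ y : Y} (h0 : y ∈ (chartAt E y₀).source) (h1 : y ∈ (chartAt E y₁).source) :
    tangentCoordChange 𝓘(ℝ, E) y₀ y₁ y = tangentCoordChange 𝓘(ℝ, E) (q y₀) (q y₁) (q y) := by
  rw [tangentCoordChange_def, tangentCoordChange_def]
  have h2 : extChartAt 𝓘(ℝ, E) y₀ y = extChartAt 𝓘(ℝ, E) (q y₀) (q y) := h.eq y₀ y h0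
  rw [← h2]
  refine Filter.EventuallyEq.fderivWithin_eq_of_nhds ?_
  have h3 : (chartAt E y₀).target ∈ 𝓝 (chartAt E y₀ y) :=
    (chartAt E y₀).open_target.mem_nhds ((chartAt E y₀).map_source h0)
  have h4 : (chartAt E y₀).symm ⁻¹' (chartAt E y₁).source ∈ 𝓝 (chartAt E y₀ y) := by
    refine ((chartAt E y₀).continuousAt_symm ((chartAt E y₀).map_source h0)).preimage_mem_nhds ?_
    rw [(chartAt E y₀).left_inv h0]
    exact (chartAt E y₁).open_source.mem_nhds h1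
  filter_upwards [h3, h4] with z hz hz'
  show chartAt E y₁ ((chartAt E y₀).symm z) = chartAt E (q y₁) ((chartAt E (q y₀)).symm z)
  rw [h.eq y₁ _ hz', h.symm y₀ hz]

theorem Ch.triv_symm {y₀ y : Y} (h0 : y ∈ (chartAt E y₀).source) (v : E) :
    ((trivializationAt E (TangentSpace 𝓘(ℝ, E) : Y → Type _) y₀).symm y v : E) =
      (trivializationAt E (TangentSpace 𝓘(ℝ, E) : M → Type _) (q y₀)).symm (q y) v := by
  have h1 := TangentBundle.symmL_trivializationAt_eq_core (𝕜 := ℝ) (I := 𝓘(ℝ, E)) h0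
  have h2 := TangentBundle.symmL_trivializationAt_eq_core (𝕜 := ℝ) (I := 𝓘(ℝ, E)) (h.src y₀ y h0)
  have h3 := h.coord h0 (mem_chart_source E y)
  have h4 : ((trivializationAt E (TangentSpace 𝓘(ℝ, E) : Y → Type _) y₀).symm y v : E) =
      tangentCoordChange 𝓘(ℝ, E) y₀ y y v :=
    (Trivialization.symmL_apply (R := ℝ) _ h0 v).symm.trans (congrArg (fun L : E →L[ℝ] E => L v) h1)
  have h5 : ((trivializationAt E (TangentSpace 𝓘(ℝ, E) : M → Type _) (q y₀)).symm (q y) v : E) =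
      tangentCoordChange 𝓘(ℝ, E) (q y₀) (q y) (q y) v :=
    (Trivialization.symmL_apply (R := ℝ) _ (h.src y₀ y h0) v).symm.trans
      (congrArg (fun L : E →L[ℝ] E => L v) h2)
  rw [h4, h5, h3]

/-- the differential of `q` is smooth -/
theorem Ch.contMDiff_tangent : ContMDiff 𝓘(ℝ, E).tangent 𝓘(ℝ, E).tangent ∞
    (fun a : TangentBundle 𝓘(ℝ, E) Y => (⟨q a.proj, a.snd⟩ : TangentBundle 𝓘(ℝ, E) M)) := by
  have h1 := (h.contMDiff ∞).contMDiff_tangentMap (m := ∞) le_rfl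
  have h2 : tangentMap 𝓘(ℝ, E) 𝓘(ℝ, E) q =
      fun a : TangentBundle 𝓘(ℝ, E) Y => (⟨q a.proj, a.snd⟩ : TangentBundle 𝓘(ℝ, E) M) := by
    funext a
    show (⟨q a.proj, mfderiv 𝓘(ℝ, E) 𝓘(ℝ, E) q a.proj a.snd⟩ : TangentBundle 𝓘(ℝ, E) M) = _
    rw [(h.hasMFDerivAt a.proj).mfderiv]
    rfl
  rw [← h2]
  exact h1

/-- the pulled back metric is smooth -/
theorem Ch.contMDiff_metric
    {g : ∀ x : M, TangentSpace 𝓘(ℝ, E) x →L[ℝ] TangentSpace 𝓘(ℝ, E) x →L[ℝ] ℝ}
    (hg : ContMDiff 𝓘(ℝ, E) (𝓘(ℝ, E).prod 𝓘(ℝ, E →L[ℝ] E →L[ℝ] ℝ)) ∞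
      (fun b => TotalSpace.mk' (E →L[ℝ] E →L[ℝ] ℝ) b (g b)))
    {g' : ∀ y : Y, TangentSpace 𝓘(ℝ, E) y →L[ℝ] TangentSpace 𝓘(ℝ, E) y →L[ℝ] ℝ}
    (hg' : ∀ (y : Y) (v w : E), g' y v w = g (q y) v w) :
    ContMDiff 𝓘(ℝ, E) (𝓘(ℝ, E).prod 𝓘(ℝ, E →L[ℝ] E →L[ℝ] ℝ)) ∞
      (fun b => TotalSpace.mk' (E →L[ℝ] E →L[ℝ] ℝ) b (g' b)) := by
  intro y₀
  have h1 := hg (q y₀)
  rw [contMDiffAt_section] at h1 ⊢
  have h2 := h1.comp y₀ (h.contMDiff ∞ y₀)
  refine h2.congr_of_eventuallyEq ?_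
  filter_upwards [chart_source_mem_nhds E y₀] with y hy
  have hy' := h.src y₀ y hy
  ext v w
  simp only [hom_trivializationAt_apply, Function.comp_apply]
  rw [inCoordinates_apply_eq₂ (E₃ := Bundle.Trivial Y ℝ) hy hy (mem_univ _),
    inCoordinates_apply_eq₂ (E₃ := Bundle.Trivial M ℝ) hy' hy' (mem_univ _)]
  simp only [Trivial.fiberBundle_trivializationAt', Trivial.linearMapAt_trivialization,
    LinearMap.id_coe, id_eq]
  refine (hg' y _ _).trans ?_
  rw [h.triv_symm hy, h.triv_symm hy]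

end Abs

section Len

variable {E : Type*} [NormedAddCommGroup E] [NormedSpace ℝ E]
  {M : Type*} [TopologicalSpace M] [ChartedSpace E M]
  [RiemannianBundle (fun x : M => TangentSpace 𝓘(ℝ, E) x)]
  {Y : Type*} [TopologicalSpace Y] [ChartedSpace E Y]
  [RiemannianBundle (fun x : Y => TangentSpace 𝓘(ℝ, E) x)]

/-- the charts and the metric of `Y` are pulled back from those of `M` -/
structure Iso (E : Type*) [NormedAddCommGroup E] [NormedSpace ℝ E]
    {M : Type*} [TopologicalSpace M] [ChartedSpace E M]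
    [RiemannianBundle (fun x : M => TangentSpace 𝓘(ℝ, E) x)]
    {Y : Type*} [TopologicalSpace Y] [ChartedSpace E Y]
    [RiemannianBundle (fun x : Y => TangentSpace 𝓘(ℝ, E) x)] (q : Y → M) : Prop
    extends Ch E q where
  nrm : ∀ (y : Y) (v : TangentSpace 𝓘(ℝ, E) y),
    ‖v‖ = ‖(show TangentSpace 𝓘(ℝ, E) (q y) from v)‖

variable {q : Y → M} (h : Iso E q)
include h

theorem Iso.pathELength_comp {γ : ℝ → Y} {a b : ℝ}
    (hγ : ∀ t ∈ Ioo a b, MDifferentiableAt 𝓘(ℝ, ℝ) 𝓘(ℝ, E) γ t) :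
    pathELength 𝓘(ℝ, E) (q ∘ γ) a b = pathELength 𝓘(ℝ, E) γ a b := by
  rw [pathELength_eq_lintegral_mfderiv_Ioo, pathELength_eq_lintegral_mfderiv_Ioo]
  refine MeasureTheory.setLIntegral_congr_fun measurableSet_Ioo (fun t ht => ?_)
  have h1 := h.toCh.mfderiv_comp (hγ t ht)
  have h2 := h.nrm (γ t) (mfderiv 𝓘(ℝ, ℝ) 𝓘(ℝ, E) γ t (1 : ℝ))
  show ‖mfderiv 𝓘(ℝ, ℝ) 𝓘(ℝ, E) (q ∘ γ) t (1 : ℝ)‖ₑ = ‖mfderiv 𝓘(ℝ, ℝ) 𝓘(ℝ, E) γ t (1 : ℝ)‖ₑ
  rw [← ofReal_norm, ← ofReal_norm, h2]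
  exact congrArg (fun v : TangentSpace 𝓘(ℝ, E) (q (γ t)) => ENNReal.ofReal ‖v‖) h1

theorem Iso.edist_le (x y : Y) :
    riemannianEDist 𝓘(ℝ, E) (q x) (q y) ≤ riemannianEDist 𝓘(ℝ, E) x y := by
  refine le_of_forall_gt fun r hr => ?_
  obtain ⟨γ, h0, h1, h2, h3⟩ := exists_lt_of_riemannianEDist_lt hr
  have h4 : ContMDiffOn 𝓘(ℝ, ℝ) 𝓘(ℝ, E) 1 (q ∘ γ) (Icc 0 1) :=
    (h.toCh.contMDiff 1).comp_contMDiffOn h2
  have h5 := riemannianEDist_le_pathELength h4 (congrArg q h0) (congrArg q h1) zero_le_one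
  rw [h.pathELength_comp (fun t ht => ((h2 t (Ioo_subset_Icc_self ht)).contMDiffAt
    (Icc_mem_nhds ht.1 ht.2)).mdifferentiableAt one_ne_zero)] at h5
  exact h5.trans_lt h3

end Len

section Constr

variable {E : Type*} [NormedAddCommGroup E] [NormedSpace ℝ E]
  {M : Type*} [TopologicalSpace M] [ChartedSpace E M]
  {Y : Type*} [TopologicalSpace Y] {q : Y → M}

/-- the total space, as a Riemannian manifold modelled on `E` -/
def Tot (_E : Type*) {M : Type*} [TopologicalSpace M] {Y : Type*} [TopologicalSpace Y] {q : Y → M}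
    (_hq : IsLocalHomeomorph q) : Type _ := Y

variable (hq : IsLocalHomeomorph q)

/-- the chart at a point -/
def chart (E : Type*) [TopologicalSpace E] [ChartedSpace E M] (y : Y) :
    OpenPartialHomeomorph Y E := (hq y).choose ≫ₕ chartAt E (q y)

theorem chart_apply (y₀ y : Y) : chart hq E y₀ y = chartAt E (q y₀) (q y) := by
  show chartAt E (q y₀) ((hq y₀).choose y) = _
  rw [← (hq y₀).choose_spec.2]

theorem chart_src {y₀ y : Y} (h : y ∈ (chart hq E y₀).source) :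
    q y ∈ (chartAt E (q y₀)).source := by
  have h1 : (hq y₀).choose y ∈ (chartAt E (q y₀)).source := h.2
  rwa [← (hq y₀).choose_spec.2] at h1

theorem mem_chart (y : Y) : y ∈ (chart hq E y).source := by
  refine ⟨(hq y).choose_spec.1, ?_⟩
  show (hq y).choose y ∈ (chartAt E (q y)).source
  rw [← (hq y).choose_spec.2]
  exact mem_chart_source E (q y)

/-- the topology of the total space -/
@[reducible] def topTot : TopologicalSpace (Tot E hq) := ‹TopologicalSpace Y›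

attribute [local instance] topTot

/-- the charts of the total space -/
@[reducible] def chTot : ChartedSpace E (Tot E hq) where
  atlas := range (chart hq E)
  chartAt := chart hq E
  mem_chart_source := mem_chart hq
  chart_mem_atlas y := ⟨y, rfl⟩

attribute [local instance] chTot

/-- the projection -/
def proj (y : Tot E hq) : M := q y

theorem ch_proj : Ch E (proj (E := E) hq) :=
  ⟨hq.continuous, fun _ _ h => chart_src hq h, fun y₀ y _ => chart_apply hq y₀ y⟩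

theorem isManifold_tot [IsManifold 𝓘(ℝ, E) ∞ M] : IsManifold 𝓘(ℝ, E) ∞ (Tot E hq) := by
  refine isManifold_of_contDiffOn _ _ _ ?_
  rintro _ _ ⟨y₀, rfl⟩ ⟨y₁, rfl⟩
  have h1 := contDiffOn_ext_coord_change (I := 𝓘(ℝ, E)) (n := ∞) (q y₁) (q y₀)
  have h2 : ∀ z ∈ ((chart hq E y₀).symm ≫ₕ chart hq E y₁).source,
      q ((chart hq E y₀).symm z) = (chartAt E (q y₀)).symm z := fun z hz =>
    (ch_proj (E := E) hq).symm y₀ hz.1
  refine (h1.mono ?_).congr ?_
  · rintro z ⟨hz, -⟩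
    have hz' : z ∈ ((chart hq E y₀).symm ≫ₕ chart hq E y₁).source := hz
    have h3 : (chartAt E (q y₀)).symm z ∈ (chartAt E (q y₁)).source := by
      rw [← h2 z hz']
      exact chart_src hq hz'.2
    have h4 : z ∈ (chartAt E (q y₀)).target := hz'.1.1
    simpa using ⟨h4, h3⟩
  · rintro z ⟨hz, -⟩
    have hz' : z ∈ ((chart hq E y₀).symm ≫ₕ chart hq E y₁).source := hz
    show chart hq E y₁ ((chart hq E y₀).symm z) = chartAt E (q y₁) ((chartAt E (q y₀)).symm z)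
    rw [chart_apply, h2 z hz']

variable [R : RiemannianBundle (fun x : M => TangentSpace 𝓘(ℝ, E) x)]

/-- the pulled back metric -/
@[reducible] def riemTot : RiemannianBundle (fun y : Tot E hq => TangentSpace 𝓘(ℝ, E) y) :=
  ⟨{ inner := fun y => R.g.inner (q y)
     symm := fun y => R.g.symm (q y)
     pos := fun y => R.g.pos (q y)
     continuousAt := fun y => R.g.continuousAt (q y)
     isVonNBounded := fun y => R.g.isVonNBounded (q y) }⟩

attribute [local instance] riemTot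

theorem iso_proj : Iso E (proj (E := E) hq) := ⟨ch_proj hq, fun _ _ => rfl⟩

variable [IsManifold 𝓘(ℝ, E) ∞ M]
  [S : IsContMDiffRiemannianBundle 𝓘(ℝ, E) ∞ E (fun x : M => TangentSpace 𝓘(ℝ, E) x)]

attribute [local instance] isManifold_tot

theorem smooth_tot :
    IsContMDiffRiemannianBundle 𝓘(ℝ, E) ∞ E (fun y : Tot E hq => TangentSpace 𝓘(ℝ, E) y) := by
  obtain ⟨g, hg, h1⟩ := S.exists_contMDiff
  refine ⟨fun y => g (q y), (ch_proj hq).contMDiff_metric hg fun _ _ _ => rfl, fun y v w => ?_⟩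
  exact h1 (q y) v w

attribute [local instance] smooth_tot

theorem cont_tot :
    IsContinuousRiemannianBundle E (fun y : Tot E hq => TangentSpace 𝓘(ℝ, E) y) := by
  obtain ⟨g, hg, h1⟩ := (smooth_tot (E := E) hq).exists_contMDiff
  exact ⟨g, hg.continuous, h1⟩

attribute [local instance] cont_tot

variable [CompactSpace Y] [T2Space Y] [ConnectedSpace Y]

theorem t3_tot : T3Space (Tot E hq) := inferInstanceAs (T3Space Y)

attribute [local instance] t3_tot

/-- the extended distance -/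
@[reducible] def emTot : EMetricSpace (Tot E hq) := EMetricSpace.ofRiemannianMetric 𝓘(ℝ, E) _

theorem edist_ne_top_tot (x y : Tot E hq) : (emTot hq).edist x y ≠ ⊤ := by
  let _ := emTot (E := E) hq
  have : PreconnectedSpace (Tot E hq) := inferInstanceAs (PreconnectedSpace Y)
  have h1 : IsClopen (Metric.eball y ⊤) := ⟨Metric.isClosed_eball_top, Metric.isOpen_eball⟩
  have h2 := h1.eq_univ ⟨y, Metric.mem_eball_self (by simp)⟩
  have h3 : x ∈ Metric.eball y ⊤ := by rw [h2]; trivial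
  exact (Metric.mem_eball.1 h3).ne

/-- the distance -/
@[reducible] def metTot : MetricSpace (Tot E hq) :=
  @EMetricSpace.toMetricSpace _ (emTot hq) (edist_ne_top_tot hq)

end Constr

/-- **the total space of a local homeomorphism is a Riemannian manifold** -/
theorem exists_tot {E : Type*} [NormedAddCommGroup E] [NormedSpace ℝ E]
    {M : Type*} [TopologicalSpace M] [ChartedSpace E M]
    [RiemannianBundle (fun x : M => TangentSpace 𝓘(ℝ, E) x)] [IsManifold 𝓘(ℝ, E) ∞ M]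
    [IsContMDiffRiemannianBundle 𝓘(ℝ, E) ∞ E (fun x : M => TangentSpace 𝓘(ℝ, E) x)]
    {Y : Type} [TopologicalSpace Y] [CompactSpace Y] [T2Space Y] [ConnectedSpace Y] {q : Y → M}
    (hq : IsLocalHomeomorph q) :
    ∃ (Z : Type) (_ : MetricSpace Z) (_ : ChartedSpace E Z)
      (_ : RiemannianBundle (fun x : Z => TangentSpace 𝓘(ℝ, E) x)) (_ : IsManifold 𝓘(ℝ, E) ∞ Z)
      (_ : IsContMDiffRiemannianBundle 𝓘(ℝ, E) ∞ E (fun x : Z => TangentSpace 𝓘(ℝ, E) x))
      (_ : IsRiemannianManifold 𝓘(ℝ, E) Z) (φ : Z ≃ₜ Y), Iso E (q ∘ φ) := by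
  let _ := metTot (E := E) hq
  let _ := chTot (E := E) hq
  let _ := riemTot (E := E) hq
  refine ⟨Tot E hq, metTot hq, chTot hq, riemTot hq, isManifold_tot hq, smooth_tot hq,
    ⟨fun _ _ => rfl⟩, Homeomorph.refl Y, iso_proj hq⟩

end

end Vale.Agent.P231Z.Cov
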